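import Mathlib

open Finset

namespace Vale.Agent.Lib.P047T

/-- Real value of a sign. -/
def sg (u : ℤˣ) : ℝ := ((u : ℤ) : ℝ)

lemma sg_sq (u : ℤˣ) : sg u * sg u = 1 := by
  rcases Int.units_eq_one_or u with h | h <;> simp [sg, h]

lemma sg_mul (u v : ℤˣ) : sg (u * v) = sg u * sg v := by
  simp [sg]

lemma sg_neg (u : ℤˣ) : sg (-u) = - sg u := by
  simp [sg]

lemma sum_units (g : ℤˣ → ℝ) : ∑ y, g y = g 1 + g (-1) := by
  have h : (Finset.univ : Finset ℤˣ) = {1, -1} := by decide
  rw [h, Finset.sum_pair (by decide)]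

lemma sg_one : sg 1 = 1 := by simp [sg]

lemma sg_neg_one : sg (-1) = -1 := by simp [sg]

lemma sum_sg : ∑ y : ℤˣ, sg y = 0 := by
  rw [sum_units, sg_one, sg_neg_one]; ring

section Cube

variable {α : Type} [Fintype α] [DecidableEq α]

/-- Character of a set of coordinates. -/
def chi (S : Finset α) (x : α → ℤˣ) : ℝ := ∏ i ∈ S, sg (x i)

/-- Size of the cube, as a real number. -/
noncomputable def vol (α : Type) [Fintype α] : ℝ := 2 ^ Fintype.card α

lemma vol_pos (α : Type) [Fintype α] : 0 < vol α := by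
  unfold vol; positivity

lemma vol_ne (α : Type) [Fintype α] : vol α ≠ 0 := (vol_pos α).ne'

/-- Fourier coefficient. -/
noncomputable def hat (f : (α → ℤˣ) → ℤˣ) (S : Finset α) : ℝ :=
  (∑ x, sg (f x) * chi S x) / vol α

/-- The level-one sum. -/
noncomputable def lev1 (f : (α → ℤˣ) → ℤˣ) : ℝ := ∑ i, hat f {i}

/-- Degree at most `d`. -/
def DegLE (f : (α → ℤˣ) → ℤˣ) (d : ℕ) : Prop := ∀ S : Finset α, d < S.card → hat f S = 0

/-- Odd functions. -/
def OddFn (f : (α → ℤˣ) → ℤˣ) : Prop := ∀ x, f (fun i => - x i) = - f x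

lemma DegLE.mono {f : (α → ℤˣ) → ℤˣ} {d e : ℕ} (h : DegLE f d) (hde : d ≤ e) : DegLE f e :=
  fun S hS => h S (lt_of_le_of_lt hde hS)

/-- The product formula over the cube. -/
lemma sum_prod (φ : α → ℤˣ → ℝ) : ∑ x : α → ℤˣ, ∏ i, φ i (x i) = ∏ i, ∑ y, φ i y := by
  have h := Finset.prod_univ_sum (fun _ : α => (Finset.univ : Finset ℤˣ)) φ
  rw [Fintype.piFinset_univ] at h
  exact h.symm

lemma chi_eq_prod (S : Finset α) (x : α → ℤˣ) :
    chi S x = ∏ i, (if i ∈ S then sg (x i) else 1) := by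
  unfold chi
  rw [Finset.prod_ite_mem]
  simp

/-- Sum of a character. -/
lemma sum_chi (S : Finset α) :
    ∑ y : α → ℤˣ, chi S y = if S = ∅ then vol α else 0 := by
  simp_rw [chi_eq_prod]
  rw [sum_prod (fun i u => if i ∈ S then sg u else 1)]
  have h : ∀ i : α, ∑ u : ℤˣ, (if i ∈ S then sg u else (1 : ℝ)) = if i ∈ S then 0 else 2 := by
    intro i
    by_cases hi : i ∈ S
    · simp only [hi, if_true]
      exact sum_sg
    · simp only [hi, if_false]
      rw [sum_units]; norm_num
  simp_rw [h]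
  by_cases hS : S = ∅
  · subst hS
    simp [vol, Finset.card_univ]
  · rw [if_neg hS]
    obtain ⟨i, hi⟩ := Finset.nonempty_iff_ne_empty.mpr hS
    exact Finset.prod_eq_zero (Finset.mem_univ i) (by simp [hi])

/-- The reproducing kernel of the cube. -/
lemma sum_chi_chi (x y : α → ℤˣ) :
    ∑ S : Finset α, chi S x * chi S y = if x = y then vol α else 0 := by
  have h1 : ∑ S : Finset α, chi S x * chi S y = ∏ i, (1 + sg (x i) * sg (y i)) := by
    rw [Finset.prod_one_add, Finset.powerset_univ]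
    refine Finset.sum_congr rfl fun S _ => ?_
    unfold chi
    rw [Finset.prod_mul_distrib]
  rw [h1]
  by_cases hxy : x = y
  · subst hxy
    rw [if_pos rfl]
    simp_rw [sg_sq]
    simp only [Finset.prod_const, Finset.card_univ, vol]
    norm_num
  · rw [if_neg hxy]
    obtain ⟨i, hi⟩ := Function.ne_iff.mp hxy
    refine Finset.prod_eq_zero (Finset.mem_univ i) ?_
    rcases Int.units_eq_one_or (x i) with h | h <;>
      rcases Int.units_eq_one_or (y i) with h' | h' <;>
      simp_all [sg]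

/-- Fourier inversion. -/
lemma inversion (f : (α → ℤˣ) → ℤˣ) (y : α → ℤˣ) :
    sg (f y) = ∑ S : Finset α, hat f S * chi S y := by
  have h : ∑ S : Finset α, hat f S * chi S y
      = (∑ x, sg (f x) * ∑ S : Finset α, chi S x * chi S y) / vol α := by
    unfold hat
    simp_rw [div_mul_eq_mul_div, Finset.sum_mul]
    rw [← Finset.sum_div, Finset.sum_comm]
    congr 1
    refine Finset.sum_congr rfl fun x _ => ?_
    rw [Finset.mul_sum]
    refine Finset.sum_congr rfl fun S _ => ?_
    ring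
  rw [h]
  simp_rw [sum_chi_chi]
  simp [vol_ne]

/-- Odd functions have mean zero. -/
lemma hat_empty_of_odd {f : (α → ℤˣ) → ℤˣ} (hf : OddFn f) : hat f ∅ = 0 := by
  unfold hat
  have hinv : Function.Involutive (fun x : α → ℤˣ => (fun i => - x i)) := by
    intro x; funext i; simp
  have h := Equiv.sum_comp (Function.Involutive.toPerm _ hinv) (fun x => sg (f x) * chi ∅ x)
  have h2 : ∀ x : α → ℤˣ, sg (f (Function.Involutive.toPerm _ hinv x))
        * chi ∅ (Function.Involutive.toPerm _ hinv x)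
      = - (sg (f x) * chi ∅ x) := by
    intro x
    have e : Function.Involutive.toPerm _ hinv x = fun i => - x i := rfl
    rw [e, hf x, sg_neg]
    simp [chi]
  simp only [h2, Finset.sum_neg_distrib] at h
  have h3 : ∑ x, sg (f x) * chi ∅ x = 0 := by linarith
  rw [h3, zero_div]

end Cube

end Vale.Agent.Lib.P047T
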