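import Mathlib
import Vale.Agent.Lib.P047T.Basic

open Finset

namespace Vale.Agent.Lib.P047T

section Comp

variable {α β : Type} [Fintype α] [DecidableEq α] [Fintype β] [DecidableEq β]

/-- Block composition. -/
def comp (f : (α → ℤˣ) → ℤˣ) (g : (β → ℤˣ) → ℤˣ) : (α × β → ℤˣ) → ℤˣ :=
  fun x => f (fun a => g (fun b => x (a, b)))

omit [DecidableEq α] [Fintype β] in
lemma sum_blocks [DecidableEq α] [Fintype β] (φ : α → (β → ℤˣ) → ℝ) :
    ∑ x : α × β → ℤˣ, ∏ a, φ a (fun b => x (a, b)) = ∏ a, ∑ y, φ a y := by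
  have h := Finset.prod_univ_sum (fun _ : α => (Finset.univ : Finset (β → ℤˣ))) φ
  rw [Fintype.piFinset_univ] at h
  rw [h]
  exact Equiv.sum_comp (Equiv.curry α β ℤˣ) (fun z => ∏ a, φ a (z a))

/-- The fibre of a set of pairs. -/
def fib (T : Finset (α × β)) (a : α) : Finset β := Finset.univ.filter (fun b => (a, b) ∈ T)

lemma chi_blocks (T : Finset (α × β)) (x : α × β → ℤˣ) :
    chi T x = ∏ a, chi (fib T a) (fun b => x (a, b)) := by
  unfold chi
  refine Finset.prod_finset_product T Finset.univ (fib T) ?_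
  intro p
  simp [fib]

lemma card_blocks (T : Finset (α × β)) : T.card = ∑ a, (fib T a).card := by
  have h := Finset.sum_finset_product (f := fun _ : α × β => (1 : ℕ)) T Finset.univ (fib T)
    (by intro p; simp [fib])
  simpa using h

lemma vol_prod : vol (α × β) = (vol β) ^ Fintype.card α := by
  unfold vol
  rw [Fintype.card_prod, ← pow_mul, mul_comm]

/-- The Fourier coefficients of a block composition. -/
theorem hat_comp (f : (α → ℤˣ) → ℤˣ) (g : (β → ℤˣ) → ℤˣ) (T : Finset (α × β)) :
    hat (comp f g) T = ∑ A : Finset α, hat f A *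
      ∏ a, (if a ∈ A then hat g (fib T a) else (if fib T a = ∅ then 1 else 0)) := by
  have hstep : ∀ x : α × β → ℤˣ, sg (comp f g x) * chi T x
      = ∑ A : Finset α, hat f A * ∏ a,
          ((if a ∈ A then sg (g (fun b => x (a, b))) else 1)
            * chi (fib T a) (fun b => x (a, b))) := by
    intro x
    unfold comp
    rw [inversion f, Finset.sum_mul]
    refine Finset.sum_congr rfl fun A _ => ?_
    rw [mul_assoc]
    congr 1
    rw [Finset.prod_mul_distrib, chi_blocks, chi_eq_prod]
  unfold hat
  simp_rw [hstep]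
  rw [Finset.sum_comm, Finset.sum_div]
  refine Finset.sum_congr rfl fun A _ => ?_
  rw [← Finset.mul_sum, sum_blocks
    (fun a y => (if a ∈ A then sg (g y) else 1) * chi (fib T a) y)]
  have hfac : ∀ a : α, ∑ y : β → ℤˣ, (if a ∈ A then sg (g y) else 1) * chi (fib T a) y
      = vol β * (if a ∈ A then hat g (fib T a) else (if fib T a = ∅ then 1 else 0)) := by
    intro a
    by_cases ha : a ∈ A
    · simp only [ha, if_true]
      unfold hat
      rw [mul_div_cancel₀ _ (vol_ne β)]
    · simp only [ha, if_false, one_mul]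
      rw [sum_chi]
      split_ifs <;> simp
  simp_rw [hfac]
  rw [Finset.prod_mul_distrib, Finset.prod_const, Finset.card_univ, vol_prod]
  have hv : (vol β) ^ Fintype.card α ≠ 0 := pow_ne_zero _ (vol_ne β)
  unfold hat
  field_simp

/-- Degrees multiply under block composition. -/
theorem deg_comp {f : (α → ℤˣ) → ℤˣ} {g : (β → ℤˣ) → ℤˣ} {d e : ℕ} (hf : DegLE f d)
    (hg : DegLE g e) : DegLE (comp f g) (d * e) := by
  intro T hT
  rw [hat_comp]
  refine Finset.sum_eq_zero fun A _ => ?_
  by_cases hA : d < A.card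
  · rw [hf A hA, zero_mul]
  refine mul_eq_zero_of_right _ ?_
  by_contra hne
  have hall := Finset.prod_ne_zero_iff.mp hne
  have h1 : ∀ a, a ∉ A → fib T a = ∅ := by
    intro a ha
    have := hall a (Finset.mem_univ a)
    simp only [ha, if_false] at this
    by_contra h
    exact this (if_neg h)
  have h2 : ∀ a, a ∈ A → (fib T a).card ≤ e := by
    intro a ha
    have := hall a (Finset.mem_univ a)
    simp only [ha, if_true] at this
    by_contra h
    exact this (hg _ (not_le.mp h))
  have h3 : T.card ≤ A.card * e := by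
    rw [card_blocks]
    calc ∑ a, (fib T a).card = ∑ a ∈ A, (fib T a).card := by
          symm
          refine Finset.sum_subset (Finset.subset_univ A) fun a _ ha => ?_
          rw [h1 a ha, Finset.card_empty]
      _ ≤ ∑ _a ∈ A, e := Finset.sum_le_sum h2
      _ = A.card * e := by simp
  have h4 : A.card * e ≤ d * e := Nat.mul_le_mul_right e (not_lt.mp hA)
  omega

/-- Level-one coefficients of a composition with a balanced inner function. -/
theorem hat_comp_single (f : (α → ℤˣ) → ℤˣ) {g : (β → ℤˣ) → ℤˣ} (hg : hat g ∅ = 0) (a0 : α)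
    (b0 : β) : hat (comp f g) {(a0, b0)} = hat f {a0} * hat g {b0} := by
  have hfib : ∀ a, fib ({(a0, b0)} : Finset (α × β)) a = if a = a0 then {b0} else ∅ := by
    intro a
    ext b
    by_cases ha : a = a0
    · subst ha; simp [fib]
    · simp [fib, ha]
  rw [hat_comp]
  rw [Finset.sum_eq_single ({a0} : Finset α)]
  · congr 1
    rw [Finset.prod_eq_single a0]
    · simp [hfib]
    · intro a _ ha
      simp [hfib, ha]
    · simp
  · intro A _ hA
    refine mul_eq_zero_of_right _ ?_
    by_cases h0 : a0 ∈ A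
    · have : ∃ a1 ∈ A, a1 ≠ a0 := by
        by_contra hcon
        push Not at hcon
        exact hA (Finset.eq_singleton_iff_unique_mem.mpr ⟨h0, hcon⟩)
      obtain ⟨a1, h1, hne⟩ := this
      refine Finset.prod_eq_zero (Finset.mem_univ a1) ?_
      simp [h1, hfib, hne, hg]
    · refine Finset.prod_eq_zero (Finset.mem_univ a0) ?_
      simp [h0, hfib]
  · intro h
    exact absurd (Finset.mem_univ _) h

/-- The level-one sum is multiplicative when the inner function is balanced. -/
theorem lev1_comp (f : (α → ℤˣ) → ℤˣ) {g : (β → ℤˣ) → ℤˣ} (hg : hat g ∅ = 0) :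
    lev1 (comp f g) = lev1 f * lev1 g := by
  unfold lev1
  rw [Fintype.sum_prod_type, Finset.sum_mul_sum]
  refine Finset.sum_congr rfl fun a _ => ?_
  refine Finset.sum_congr rfl fun b _ => ?_
  exact hat_comp_single f hg a b

/-- Odd functions are closed under composition. -/
theorem odd_comp {f : (α → ℤˣ) → ℤˣ} {g : (β → ℤˣ) → ℤˣ} (hf : OddFn f) (hg : OddFn g) :
    OddFn (comp f g) := by
  intro x
  unfold comp
  have : (fun a => g (fun b => - x (a, b))) = fun a => - g (fun b => x (a, b)) := by
    funext a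
    exact hg _
  rw [this]
  exact hf _

end Comp

section Reindex

variable {α β : Type} [Fintype α] [DecidableEq α] [Fintype β] [DecidableEq β]

/-- Renaming the coordinates. -/
def reindex (e : α ≃ β) (f : (α → ℤˣ) → ℤˣ) : (β → ℤˣ) → ℤˣ := fun y => f (fun a => y (e a))

theorem hat_reindex (e : α ≃ β) (f : (α → ℤˣ) → ℤˣ) (S : Finset β) :
    hat (reindex e f) S = hat f (S.map e.symm.toEmbedding) := by
  unfold hat
  have hv : vol β = vol α := by
    unfold vol; rw [Fintype.card_congr e]
  rw [hv]
  congr 1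
  have h := Equiv.sum_comp (Equiv.arrowCongr e (Equiv.refl ℤˣ))
    (fun y : β → ℤˣ => sg (reindex e f y) * chi S y)
  rw [← h]
  refine Finset.sum_congr rfl fun x _ => ?_
  congr 1
  · unfold reindex
    congr 2
    funext a
    simp [Equiv.arrowCongr]
  · unfold chi
    rw [Finset.prod_map]
    refine Finset.prod_congr rfl fun j _ => ?_
    simp [Equiv.arrowCongr]

theorem deg_reindex (e : α ≃ β) {f : (α → ℤˣ) → ℤˣ} {d : ℕ} (hf : DegLE f d) :
    DegLE (reindex e f) d := by
  intro S hS
  rw [hat_reindex]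
  exact hf _ (by rwa [Finset.card_map])

theorem lev1_reindex (e : α ≃ β) (f : (α → ℤˣ) → ℤˣ) : lev1 (reindex e f) = lev1 f := by
  unfold lev1
  have h : ∀ j : β, hat (reindex e f) {j} = hat f {e.symm j} := by
    intro j
    rw [hat_reindex]
    simp
  simp_rw [h]
  exact Equiv.sum_comp e.symm (fun i => hat f {i})

theorem odd_reindex (e : α ≃ β) {f : (α → ℤˣ) → ℤˣ} (hf : OddFn f) : OddFn (reindex e f) := by
  intro y
  exact hf _

end Reindex

end Vale.Agent.Lib.P047T
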