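import Mathlib
import Vale.Agent.Lib.P047T.Comp

open Finset

namespace Vale.Agent.Lib.P047T

section Oddify

variable {α : Type} [Fintype α] [DecidableEq α]

/-- Odd extension by one new variable. -/
def oddify (f : (α → ℤˣ) → ℤˣ) : (Option α → ℤˣ) → ℤˣ :=
  fun x => x none * f (fun a => x none * x (some a))

theorem odd_oddify (f : (α → ℤˣ) → ℤˣ) : OddFn (oddify f) := by
  intro x
  unfold oddify
  have : (fun a => - x none * - x (some a)) = fun a => x none * x (some a) := by
    funext a
    simp
  simp only [this]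
  simp

/-- Coordinates on the extended cube. -/
def rho : ℤˣ × (α → ℤˣ) ≃ (Option α → ℤˣ) where
  toFun p := fun o => o.elim p.1 (fun a => p.1 * p.2 a)
  invFun x := (x none, fun a => x none * x (some a))
  left_inv p := by
    ext a
    · rfl
    · simp [← mul_assoc]
  right_inv x := by
    funext o
    cases o with
    | none => rfl
    | some a => simp [← mul_assoc]

lemma vol_option : vol (Option α) = 2 * vol α := by
  unfold vol
  rw [Fintype.card_option, pow_succ]; ring

lemma chi_rho (T : Finset (Option α)) (z : ℤˣ) (u : α → ℤˣ) :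
    chi T (rho (z, u)) = (if none ∈ T then sg z else 1)
      * ((sg z) ^ T.eraseNone.card * chi T.eraseNone u) := by
  classical
  have hval : ∀ a, rho (z, u) (some a) = z * u a := fun a => rfl
  have hnone : rho (z, u) none = z := rfl
  have h2 : ∏ a ∈ T.eraseNone, sg (rho (z, u) (some a))
      = (sg z) ^ T.eraseNone.card * chi T.eraseNone u := by
    unfold chi
    simp_rw [hval, sg_mul]
    rw [Finset.prod_mul_distrib, Finset.prod_const]
  by_cases hT : none ∈ T
  · have hi : Finset.insertNone T.eraseNone = T := by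
      rw [Finset.insertNone_eraseNone, Finset.insert_eq_self.mpr hT]
    unfold chi at h2 ⊢
    conv_lhs => rw [← hi]
    rw [Finset.prod_insertNone, if_pos hT, hnone, h2]
  · have hi : T.eraseNone.map Function.Embedding.some = T := by
      rw [Finset.map_some_eraseNone, Finset.erase_eq_of_notMem hT]
    unfold chi at h2 ⊢
    conv_lhs => rw [← hi]
    rw [Finset.prod_map, if_neg hT, one_mul]
    simpa using h2

/-- The Fourier coefficients of the odd extension. -/
theorem hat_oddify (f : (α → ℤˣ) → ℤˣ) (T : Finset (Option α)) :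
    hat (oddify f) T
      = (∑ z : ℤˣ, sg z * ((if none ∈ T then sg z else 1) * (sg z) ^ T.eraseNone.card)) / 2
        * hat f T.eraseNone := by
  unfold hat
  rw [vol_option]
  have h := Equiv.sum_comp (rho (α := α)) (fun x => sg (oddify f x) * chi T x)
  rw [← h, Fintype.sum_prod_type]
  have hv := vol_ne α
  have hstep : ∀ (z : ℤˣ) (u : α → ℤˣ), sg (oddify f (rho (z, u))) * chi T (rho (z, u))
      = (sg z * ((if none ∈ T then sg z else 1) * (sg z) ^ T.eraseNone.card))
        * (sg (f u) * chi T.eraseNone u) := by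
    intro z u
    have h1 : oddify f (rho (z, u)) = z * f u := by
      unfold oddify
      have hnone : rho (z, u) none = z := rfl
      have hval : ∀ a, rho (z, u) (some a) = z * u a := fun a => rfl
      simp only [hnone, hval, ← mul_assoc]
      simp
    rw [h1, sg_mul, chi_rho]
    ring
  simp_rw [hstep]
  simp_rw [← Finset.mul_sum]
  rw [← Finset.sum_mul]
  field_simp

theorem deg_oddify {f : (α → ℤˣ) → ℤˣ} {d : ℕ} (hf : DegLE f d) :
    DegLE (oddify f) (d + 1) := by
  intro T hT
  rw [hat_oddify]
  have hsub : T ⊆ Finset.insertNone T.eraseNone := by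
    rw [Finset.insertNone_eraseNone]
    exact Finset.subset_insert _ _
  have hc := Finset.card_le_card hsub
  rw [Finset.card_insertNone] at hc
  rw [hf T.eraseNone (by omega), mul_zero]

lemma sum_units_sq : ∑ z : ℤˣ, sg z * sg z = 2 := by
  simp_rw [sg_sq]
  rw [sum_units]; norm_num

theorem lev1_oddify (f : (α → ℤˣ) → ℤˣ) : lev1 (oddify f) = lev1 f + hat f ∅ := by
  unfold lev1
  rw [Fintype.sum_option, add_comm]
  congr 1
  · refine Finset.sum_congr rfl fun a _ => ?_
    rw [hat_oddify]
    have e : ({some a} : Finset (Option α)).eraseNone = {a} := by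
      ext b; simp
    have h0 : none ∉ ({some a} : Finset (Option α)) := by simp
    rw [e]
    simp only [h0, if_false, one_mul, Finset.card_singleton, pow_one]
    rw [sum_units_sq]
    norm_num
  · rw [hat_oddify]
    have e : ({none} : Finset (Option α)).eraseNone = ∅ := by
      ext b; simp
    have h0 : none ∈ ({none} : Finset (Option α)) := by simp
    rw [e]
    simp only [h0, if_true, Finset.card_empty, pow_zero, mul_one]
    rw [sum_units_sq]
    norm_num

/-- The twin function with the same level-one sum and opposite mean. -/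
def twin (f : (α → ℤˣ) → ℤˣ) : (α → ℤˣ) → ℤˣ := fun x => - f (fun i => - x i)

lemma chi_neg (S : Finset α) (x : α → ℤˣ) :
    chi S (fun i => - x i) = (-1) ^ S.card * chi S x := by
  unfold chi
  simp_rw [sg_neg]
  rw [Finset.prod_neg]

theorem hat_twin (f : (α → ℤˣ) → ℤˣ) (S : Finset α) :
    hat (twin f) S = - ((-1) ^ S.card * hat f S) := by
  unfold hat
  have hinv : Function.Involutive (fun x : α → ℤˣ => (fun i => - x i)) := by
    intro x; funext i; simp
  have h := Equiv.sum_comp (Function.Involutive.toPerm _ hinv)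
    (fun x => sg (twin f x) * chi S x)
  rw [← h]
  have h2 : ∀ x : α → ℤˣ, sg (twin f (Function.Involutive.toPerm _ hinv x))
        * chi S (Function.Involutive.toPerm _ hinv x)
      = - ((-1) ^ S.card * (sg (f x) * chi S x)) := by
    intro x
    have e : Function.Involutive.toPerm _ hinv x = fun i => - x i := rfl
    rw [e, chi_neg]
    unfold twin
    have : (fun i => - (fun i => - x i) i) = x := by
      funext i; simp
    rw [sg_neg, this]
    ring
  simp_rw [h2, Finset.sum_neg_distrib, ← Finset.mul_sum]
  ring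

theorem deg_twin {f : (α → ℤˣ) → ℤˣ} {d : ℕ} (hf : DegLE f d) : DegLE (twin f) d := by
  intro S hS
  rw [hat_twin, hf S hS]; ring

theorem lev1_twin (f : (α → ℤˣ) → ℤˣ) : lev1 (twin f) = lev1 f := by
  unfold lev1
  refine Finset.sum_congr rfl fun i _ => ?_
  rw [hat_twin]
  simp

theorem mean_twin (f : (α → ℤˣ) → ℤˣ) : hat (twin f) ∅ = - hat f ∅ := by
  rw [hat_twin]
  simp

end Oddify

section Power

/-- The dictator on one coordinate. -/
def dict : (Unit → ℤˣ) → ℤˣ := fun x => x ()

theorem odd_dict : OddFn dict := fun _ => rfl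

theorem deg_dict : DegLE dict 1 := by
  intro S hS
  exfalso
  have : S.card ≤ Fintype.card Unit := Finset.card_le_univ S
  simp at this
  omega

theorem lev1_dict : lev1 dict = 1 := by
  unfold lev1 hat
  simp only [Fintype.sum_unique]
  have h : ∀ x : Unit → ℤˣ, sg (dict x) * chi {default} x = 1 := by
    intro x
    unfold chi dict
    simp [sg_sq]
  simp_rw [h]
  simp [vol, Finset.card_univ]

/-- Iterated composition. -/
theorem iterate_odd {α : Type} [Fintype α] [DecidableEq α] {f : (α → ℤˣ) → ℤˣ} {d : ℕ}
    (hodd : OddFn f) (hdeg : DegLE f d) (k : ℕ) :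
    ∃ (γ : Type) (_ : Fintype γ) (_ : DecidableEq γ) (F : (γ → ℤˣ) → ℤˣ),
      OddFn F ∧ DegLE F (d ^ k) ∧ lev1 F = (lev1 f) ^ k := by
  induction k with
  | zero =>
    exact ⟨Unit, inferInstance, inferInstance, dict, odd_dict, by simpa using deg_dict,
      by simpa using lev1_dict⟩
  | succ k ih =>
    obtain ⟨γ, _, _, F, h1, h2, h3⟩ := ih
    refine ⟨α × γ, inferInstance, inferInstance, comp f F, odd_comp hodd h1, ?_, ?_⟩
    · have := deg_comp hdeg h2
      rw [pow_succ, mul_comm]
      exact this
    · rw [lev1_comp f (hat_empty_of_odd h1), h3, pow_succ]; ring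

/-- Transfer to standard coordinates. -/
theorem to_fin {γ : Type} [Fintype γ] [DecidableEq γ] (F : (γ → ℤˣ) → ℤˣ) :
    ∃ (n : ℕ) (F' : (Fin n → ℤˣ) → ℤˣ),
      (OddFn F → OddFn F') ∧ (∀ d, DegLE F d → DegLE F' d) ∧ lev1 F' = lev1 F ∧
        hat F' ∅ = hat F ∅ := by
  refine ⟨Fintype.card γ, reindex (Fintype.equivFin γ) F, odd_reindex _, fun d h => deg_reindex _ h,
    lev1_reindex _ _, ?_⟩
  rw [hat_reindex]
  simp

end Power

end Vale.Agent.Lib.P047T
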