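import Mathlib
import Vale.Agent.Lib.P047T.Oddify

open Finset

namespace Vale.Agent.Lib.P047T

/-- The sum of the level-one Fourier coefficients of a Boolean function on the cube. -/
noncomputable def W {n : ℕ} (f : (Fin n → ℤˣ) → ℤˣ) : ℝ :=
  ∑ i, (∑ x, ((f x : ℤ) : ℝ) * ((x i : ℤ) : ℝ)) / 2 ^ n

/-- The mean of a Boolean function on the cube. -/
noncomputable def Mean {n : ℕ} (f : (Fin n → ℤˣ) → ℤˣ) : ℝ :=
  (∑ x, ((f x : ℤ) : ℝ)) / 2 ^ n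

/-- All Fourier coefficients above level `d` vanish, that is, the degree is at most `d`. -/
def HasDegLE {n : ℕ} (f : (Fin n → ℤˣ) → ℤˣ) (d : ℕ) : Prop :=
  ∀ S : Finset (Fin n), d < S.card → ∑ x, ((f x : ℤ) : ℝ) * ∏ i ∈ S, ((x i : ℤ) : ℝ) = 0

/-- `f (-x) = - f x`. -/
def IsOddFn {n : ℕ} (f : (Fin n → ℤˣ) → ℤˣ) : Prop :=
  ∀ x, f (fun i => - x i) = - f x

lemma W_eq {n : ℕ} (f : (Fin n → ℤˣ) → ℤˣ) : W f = lev1 f := by
  unfold W lev1 hat chi vol sg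
  simp

lemma Mean_eq {n : ℕ} (f : (Fin n → ℤˣ) → ℤˣ) : Mean f = hat f ∅ := by
  unfold Mean hat chi vol sg
  simp

lemma HasDegLE_iff {n : ℕ} (f : (Fin n → ℤˣ) → ℤˣ) (d : ℕ) : HasDegLE f d ↔ DegLE f d := by
  unfold HasDegLE DegLE hat chi vol sg
  constructor
  · intro h S hS
    rw [h S hS, zero_div]
  · intro h S hS
    have h1 := h S hS
    have hv : (2 : ℝ) ^ Fintype.card (Fin n) ≠ 0 := by positivity
    exact (div_eq_zero_iff.mp h1).resolve_right hv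

/-- Powers of an odd function. -/
theorem power_fin {n : ℕ} {f : (Fin n → ℤˣ) → ℤˣ} {d : ℕ} (hodd : IsOddFn f) (hdeg : HasDegLE f d)
    (k : ℕ) : ∃ (m : ℕ) (F : (Fin m → ℤˣ) → ℤˣ), HasDegLE F (d ^ k) ∧ W F = (W f) ^ k := by
  obtain ⟨γ, _, _, F, h1, h2, h3⟩ := iterate_odd (f := f) (d := d) hodd ((HasDegLE_iff f d).mp hdeg) k
  obtain ⟨m, F', -, h5, h6, -⟩ := to_fin F
  refine ⟨m, F', (HasDegLE_iff F' _).mpr (h5 _ h2), ?_⟩
  rw [W_eq, W_eq, h6, h3]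

lemma rpow_pow_swap {b a : ℝ} (hb : 0 ≤ b) (k : ℕ) : (b ^ k) ^ a = (b ^ a) ^ k := by
  rw [← Real.rpow_natCast b k, ← Real.rpow_natCast (b ^ a) k, ← Real.rpow_mul hb,
    ← Real.rpow_mul hb, mul_comm]

/-- The tensor power trick: a bound with a constant gives the bound with constant one on odd
functions. -/
theorem tensor (a C : ℝ)
    (hb : ∀ (n : ℕ) (f : (Fin n → ℤˣ) → ℤˣ) (d : ℕ), 1 ≤ d → HasDegLE f d → W f ≤ C * (d : ℝ) ^ a)
    {n : ℕ} {f : (Fin n → ℤˣ) → ℤˣ} {d : ℕ} (hd : 1 ≤ d) (hodd : IsOddFn f) (hdeg : HasDegLE f d) :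
    W f ≤ (d : ℝ) ^ a := by
  by_contra hcon
  push Not at hcon
  have hdpos : (0 : ℝ) < d := by exact_mod_cast hd
  have hpos : 0 < (d : ℝ) ^ a := Real.rpow_pos_of_pos hdpos a
  have hr : 1 < W f / (d : ℝ) ^ a := (one_lt_div hpos).mpr hcon
  obtain ⟨k, hk⟩ := pow_unbounded_of_one_lt C hr
  obtain ⟨m, F, h1, h2⟩ := power_fin hodd hdeg k
  have h3 := hb m F (d ^ k) (Nat.one_le_pow _ _ hd) h1
  rw [h2] at h3
  have h4 : ((d ^ k : ℕ) : ℝ) ^ a = ((d : ℝ) ^ a) ^ k := by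
    rw [Nat.cast_pow, rpow_pow_swap hdpos.le]
  rw [h4] at h3
  rw [div_pow, lt_div_iff₀ (pow_pos hpos k)] at hk
  linarith

/-- Passing from odd functions to all functions. -/
theorem all_of_odd (a : ℝ)
    (hb : ∀ (n : ℕ) (f : (Fin n → ℤˣ) → ℤˣ) (d : ℕ), 1 ≤ d → IsOddFn f → HasDegLE f d →
      W f ≤ (d : ℝ) ^ a)
    {n : ℕ} {f : (Fin n → ℤˣ) → ℤˣ} {d : ℕ} (hdeg : HasDegLE f d) :
    W f + |Mean f| ≤ ((d + 1 : ℕ) : ℝ) ^ a := by
  have key : ∀ g : (Fin n → ℤˣ) → ℤˣ, HasDegLE g d →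
      W g + Mean g ≤ ((d + 1 : ℕ) : ℝ) ^ a := by
    intro g hg
    obtain ⟨m, F, h1, h2, h3, -⟩ := to_fin (oddify g)
    have h4 := hb m F (d + 1) (by omega)
      (h1 (odd_oddify g)) ((HasDegLE_iff F _).mpr (h2 _ (deg_oddify ((HasDegLE_iff g d).mp hg))))
    rw [W_eq, h3, lev1_oddify] at h4
    rw [W_eq, Mean_eq]
    exact h4
  have h1 := key f hdeg
  have h2 := key (twin f) ((HasDegLE_iff _ _).mpr (deg_twin ((HasDegLE_iff f d).mp hdeg)))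
  have e1 : W (twin f) = W f := by rw [W_eq, W_eq, lev1_twin]
  have e2 : Mean (twin f) = - Mean f := by rw [Mean_eq, Mean_eq, mean_twin]
  rw [e1, e2] at h2
  rcases abs_cases (Mean f) with ⟨h, -⟩ | ⟨h, -⟩ <;> rw [h] <;> linarith

/-- The dichotomy, in terms of one violating odd function. -/
theorem growth_of_violation {n0 : ℕ} {f0 : (Fin n0 → ℤˣ) → ℤˣ} {d0 : ℕ} (hd0 : 1 ≤ d0)
    (hodd : IsOddFn f0) (hdeg : HasDegLE f0 d0) (hW : Real.sqrt d0 < W f0) :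
    ∃ c : ℝ, 0 < c ∧ ∃ C : ℝ, 0 < C ∧ ∀ d : ℕ, 1 ≤ d →
      ∃ (n : ℕ) (f : (Fin n → ℤˣ) → ℤˣ), HasDegLE f d ∧ C * (d : ℝ) ^ ((1 : ℝ) / 2 + c) ≤ W f := by
  have hdeg_mono : ∀ {m : ℕ} {F : (Fin m → ℤˣ) → ℤˣ} {a b : ℕ}, HasDegLE F a → a ≤ b →
      HasDegLE F b := by
    intro m F a b h hab S hS
    exact h S (lt_of_le_of_lt hab hS)
  rcases Nat.lt_or_ge d0 2 with h2 | h2
  · -- degree one: the powers are unbounded
    have hd01 : d0 = 1 := by omega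
    subst hd01
    have hW1 : 1 < W f0 := by simpa using hW
    refine ⟨1 / 2, by norm_num, 1, one_pos, fun d hd => ?_⟩
    obtain ⟨k, hk⟩ := pow_unbounded_of_one_lt (d : ℝ) hW1
    obtain ⟨m, F, h1, h3⟩ := power_fin hodd hdeg k
    refine ⟨m, F, hdeg_mono h1 (by simpa using hd), ?_⟩
    rw [h3]
    have e : (1 : ℝ) / 2 + 1 / 2 = 1 := by norm_num
    rw [e, Real.rpow_one, one_mul]
    exact hk.le
  · -- degree at least two
    have hb1 : (1 : ℝ) < d0 := by exact_mod_cast h2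
    have hb0 : (0 : ℝ) < d0 := by linarith
    have hW0 : 0 < W f0 := lt_of_le_of_lt (Real.sqrt_nonneg _) hW
    set e : ℝ := Real.logb d0 (W f0) with he
    have hpow : (d0 : ℝ) ^ e = W f0 := Real.rpow_logb hb0 hb1.ne' hW0
    have hc : 1 / 2 < e := by
      rw [he, Real.lt_logb_iff_rpow_lt hb1 hW0, ← Real.sqrt_eq_rpow]
      exact hW
    refine ⟨e - 1 / 2, by linarith, 1 / W f0, by positivity, fun d hd => ?_⟩
    have hsum : (1 : ℝ) / 2 + (e - 1 / 2) = e := by ring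
    rw [hsum]
    set k := Nat.log d0 d with hk
    have hk1 : d0 ^ k ≤ d := Nat.pow_log_le_self d0 (by omega)
    have hk2 : d < d0 ^ (k + 1) := Nat.lt_pow_succ_log_self (by omega) d
    obtain ⟨m, F, h1, h3⟩ := power_fin hodd hdeg k
    refine ⟨m, F, hdeg_mono h1 hk1, ?_⟩
    rw [h3]
    have hepos : 0 ≤ e := by linarith
    have hdr : (d : ℝ) ≤ (d0 : ℝ) ^ k * d0 := by
      have : ((d : ℕ) : ℝ) < ((d0 ^ (k + 1) : ℕ) : ℝ) := by exact_mod_cast hk2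
      rw [Nat.cast_pow, pow_succ] at this
      exact this.le
    have h5 : (d : ℝ) ^ e ≤ ((d0 : ℝ) ^ k * d0) ^ e :=
      Real.rpow_le_rpow (by positivity) hdr hepos
    rw [Real.mul_rpow (by positivity) hb0.le, hpow, rpow_pow_swap hb0.le, hpow] at h5
    rw [div_mul_eq_mul_div, one_mul, div_le_iff₀ hW0]
    exact h5

end Vale.Agent.Lib.P047T
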